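import Vale.Agent.P284.H894.V.Spec
import Vale.Agent.P272.K.EST.Main
import Vale.Agent.P272.K.C3.Calabi
import Vale.Agent.P272.K.IE.Final

/-! P284, theorem CY, row E: the interior `C^{2,β}` estimate in a ball of `ℂⁿ`. -/

open scoped ContDiff ComplexOrder Topology
open Metric Filter Set

set_option linter.all false

noncomputable section

namespace Vale.Agent.P284.H119.CY

open Vale.Agent.P272.K Vale.Agent.P272.K.EST Vale.Agent.P284.H894.V

variable {n : ℕ}

/-- the twisting term -/
def Tw (w : Cm n → Matrix (Fin n) (Fin n) ℂ) (f : Cm n → ℝ) (z : Cm n) :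
    Matrix (Fin n) (Fin n) ℂ :=
  (cHess (fun y => Real.log (w y).det.re) z - w z) + cHess f z

lemma c2_of {f : Cm n → ℝ} {z : Cm n} (hf : ContDiffAt ℝ ∞ f z) : ContDiffAt ℝ 2 f z :=
  hf.of_le (by norm_cast)

lemma smooth_logdet' {U : Set (Cm n)} {w : Cm n → Matrix (Fin n) (Fin n) ℂ} (hw : KU U w)
    {z : Cm n} (hz : z ∈ U) : ContDiffAt ℝ ∞ (fun y => Real.log (w y).det.re) z := by
  have h1 : ContDiffAt ℝ ∞ (fun y => (w y).det.re) z :=
    contDiffAt_re (contDiffAt_det fun i j => hw.smooth z hz i j)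
  have h2 : 0 < (w z).det.re := (Complex.pos_iff.1 (hw.pos z hz).det_pos).1
  exact h1.log h2.ne'

/-- **The interior `C^{2,β}` estimate in one ball**: the constant depends only on the metric, the
radii, the ellipticity constant and bounds for `u`, `∂∂̄f` and the derivatives of `∂∂̄f`. -/
theorem est_local (p : Cm n) {R ρ β : ℝ} (hR : 0 < R) (hRρ : R < ρ) (hβ0 : 0 < β) (hβ1 : β < 1)
    {w : Cm n → Matrix (Fin n) (Fin n) ℂ} (hw : KU (ball p ρ) w) {C : ℝ} (hC0 : 0 < C)
    (M₀ A : ℝ) : ∃ CI : ℝ, ∀ u f : Cm n → ℝ,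
    (∀ z ∈ ball p ρ, ContDiffAt ℝ ∞ u z) → (∀ z ∈ ball p ρ, |u z| ≤ M₀) →
    (∀ z ∈ ball p ρ, (w z + cHess u z).PosDef) →
    (∀ z ∈ ball p ρ, ((C : ℂ) • (w z + cHess u z) - w z).PosSemidef) →
    (∀ z ∈ ball p ρ, ((C : ℂ) • w z - (w z + cHess u z)).PosSemidef) →
    (∀ z ∈ ball p ρ, ContDiffAt ℝ ∞ f z) →
    (∀ z ∈ closedBall p ((R + ρ) / 2), ∀ i j, ‖cHess f z i j‖ ≤ A) →
    (∀ z ∈ closedBall p ((R + ρ) / 2), ∀ i j k, ‖dz k (fun y => cHess f y i j) z‖ ≤ A) →
    (∀ z ∈ ball p ρ, Real.log (w z + cHess u z).det.re - Real.log (w z).det.re = u z + f z) →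
    ∀ y ∈ closedBall p R, ∀ y' ∈ closedBall p R,
      ‖fderiv ℝ (fderiv ℝ u) y - fderiv ℝ (fderiv ℝ u) y'‖ ≤ CI * ‖y - y'‖ ^ β := by
  set δ : ℝ := (ρ - R) / 2 with hδd
  have hδ : 0 < δ := by rw [hδd]; linarith
  have hδR : δ + R = (R + ρ) / 2 := by rw [hδd]; ring
  rw [← hδR]
  have hK : IsCompact (closedBall p (δ + R)) := isCompact_closedBall _ _
  have hsub : closedBall p (δ + R) ⊆ ball p ρ := closedBall_subset_ball (by rw [hδd]; linarith)
  -- ellipticity
  have hc : ∀ i j, ContinuousOn (fun z => w z i j) (closedBall p (δ + R)) := fun i j z hz =>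
    (hw.smooth z (hsub hz) i j).continuousAt.continuousWithinAt
  obtain ⟨C1, hC1, h1⟩ := exists_quad_lower hK (fun z => w z)
    (fun _ => (1 : Matrix (Fin n) (Fin n) ℂ)) hc (fun i j => continuousOn_const)
    (fun z hz => hw.pos z (hsub hz))
  obtain ⟨C2, hC2, h2⟩ := exists_quad_lower hK (fun _ => (1 : Matrix (Fin n) (Fin n) ℂ))
    (fun z => w z) (fun i j => continuousOn_const) hc (fun z hz => Matrix.PosDef.one)
  set lam : ℝ := 1 / (C * C1) with hlamd
  set Lam : ℝ := C * C2 with hLamd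
  have hlam : 0 < lam := by positivity
  have hell : ∀ u : Cm n → ℝ, (∀ z ∈ ball p ρ, (w z + cHess u z).PosDef) →
      (∀ z ∈ ball p ρ, ((C : ℂ) • (w z + cHess u z) - w z).PosSemidef) →
      (∀ z ∈ ball p ρ, ((C : ℂ) • w z - (w z + cHess u z)).PosSemidef) →
      ∀ z ∈ closedBall p (δ + R),
        ((w z + cHess u z) - (lam : ℂ) • (1 : Matrix (Fin n) (Fin n) ℂ)).PosSemidef ∧
        ((Lam : ℂ) • (1 : Matrix (Fin n) (Fin n) ℂ) - (w z + cHess u z)).PosSemidef := by
    intro u hp hl hu z hz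
    have hKz := (hp z (hsub hz)).isHermitian
    have hχz := (hw.pos z (hsub hz)).isHermitian
    have a1 := quad_nonneg (hl z (hsub hz))
    have a2 := quad_nonneg (hu z (hsub hz))
    constructor
    · have : ((w z + cHess u z) - (lam : ℂ) • (1 : Matrix (Fin n) (Fin n) ℂ)) =
          (((1 : ℝ) : ℂ) • (w z + cHess u z) - (lam : ℂ) •
            (1 : Matrix (Fin n) (Fin n) ℂ)) := by simp
      rw [this, posSemidef_smul_sub_iff hKz one_isHermitian]
      intro ξ
      have b1 := a1 ξ
      rw [quad_sub, quad_smulM, Complex.sub_re, Complex.re_ofReal_mul] at b1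
      have b2 := h1 z hz ξ
      rw [one_mul, hlamd, div_mul_eq_mul_div, one_mul, div_le_iff₀ (by positivity)]
      calc (quad 1 ξ).re ≤ C1 * (quad (w z) ξ).re := b2
        _ ≤ C1 * (C * (quad (w z + cHess u z) ξ).re) := by
            refine mul_le_mul_of_nonneg_left ?_ hC1.le
            linarith
        _ = _ := by ring
    · have : ((Lam : ℂ) • (1 : Matrix (Fin n) (Fin n) ℂ) - (w z + cHess u z)) =
          ((Lam : ℂ) • (1 : Matrix (Fin n) (Fin n) ℂ) - ((1 : ℝ) : ℂ) • (w z + cHess u z)) := by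
        simp
      rw [this, posSemidef_smul_sub_iff one_isHermitian hKz]
      intro ξ
      have b1 := a2 ξ
      rw [quad_sub, quad_smulM, Complex.sub_re, Complex.re_ofReal_mul] at b1
      have b2 := h2 z hz ξ
      rw [one_mul, hLamd]
      calc (quad (w z + cHess u z) ξ).re ≤ C * (quad (w z) ξ).re := by linarith
        _ ≤ C * (C2 * (quad 1 ξ).re) := mul_le_mul_of_nonneg_left b2 hC0.le
        _ = _ := by ring
  -- bounds for the twisting term
  have s0 : ∀ z ∈ ball p ρ, ∀ i j, ContDiffAt ℝ ∞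
      (fun y => cHess (fun y => Real.log (w y).det.re) y i j - w y i j) z := fun z hz i j =>
    (smooth_cHess (smooth_logdet' hw hz) i j).sub (hw.smooth z hz i j)
  obtain ⟨A0, hA0, hA⟩ := exists_common_bound hK
    (fun (p : Fin n × Fin n) z => cHess (fun y => Real.log (w y).det.re) z p.1 p.2 - w z p.1 p.2)
    (fun p z hz => (s0 z (hsub hz) p.1 p.2).continuousAt.continuousWithinAt)
  obtain ⟨A1, hA1, hA'⟩ := exists_common_bound hK
    (fun (p : (Fin n × Fin n) × Fin n) z =>
      dz p.2 (fun y => cHess (fun y => Real.log (w y).det.re) y p.1.1 p.1.2 - w y p.1.1 p.1.2) z)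
    (fun p z hz => (smooth_dz (s0 z (hsub hz) p.1.1 p.1.2) p.2).continuousAt.continuousWithinAt)
  set C₀ : ℝ := A0 + A1 + |A| with hC₀
  obtain ⟨C3, hC3'⟩ := C3.calabi n p (2 * δ / 3 + R) (δ + R) lam Lam C₀ (by positivity)
    (by linarith) hlam
  -- bounds for the reference metric
  obtain ⟨B0, hB0, hB⟩ := exists_common_bound hK
    (fun (p : Fin n × Fin n) z => w z p.1 p.2)
    (fun p z hz => (hw.smooth z (hsub hz) p.1 p.2).continuousAt.continuousWithinAt)
  obtain ⟨B1, hB1, hB'⟩ := exists_common_bound hK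
    (fun (p : (Fin n × Fin n) × Fin n) z => dz p.2 (fun y => w y p.1.1 p.1.2) z)
    (fun p z hz => (smooth_dz (hw.smooth z (hsub hz) p.1.1 p.1.2) p.2).continuousAt.continuousWithinAt)
  set M : ℝ := |M₀| + (2 * |Lam| + B0) + (|C3| + B1) with hM
  obtain ⟨CI, hCI⟩ := IE.ie n p (δ / 3 + R) (2 * δ / 3 + R) β M (by positivity) (by linarith)
    hβ0 hβ1
  refine ⟨CI, fun u f hu hu0 hpos hlo hup hf hfA hfA' heq y hy y' hy' => ?_⟩
  have hb3 : ball p (δ + R) ⊆ closedBall p (δ + R) := ball_subset_closedBall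
  have hE := hell u hpos hlo hup
  have hent : ∀ i j y, Tw w f y i j =
      (cHess (fun y => Real.log (w y).det.re) y i j - w y i j) + cHess f y i j := by
    intro i j y
    simp only [Tw, Matrix.add_apply, Matrix.sub_apply]
  have t1 : ∀ z ∈ closedBall p (δ + R), ∀ i j, ContDiffAt ℝ ∞ (fun y => Tw w f y i j) z := by
    intro z hz i j
    simp only [hent]
    exact (s0 z (hsub hz) i j).add (smooth_cHess (hf z (hsub hz)) i j)
  have t2 : ∀ z ∈ closedBall p (δ + R), ∀ i j, ‖Tw w f z i j‖ ≤ C₀ := by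
    intro z hz i j
    rw [hent]
    have h1 := hA (i, j) z hz
    have h2 := hfA z hz i j
    simp only at h1
    refine (norm_add_le _ _).trans ?_
    rw [hC₀]
    linarith [le_abs_self A]
  have t3 : ∀ z ∈ closedBall p (δ + R), ∀ i j k, ‖dz k (fun y => Tw w f y i j) z‖ ≤ C₀ := by
    intro z hz i j k
    simp only [hent]
    rw [dz_add (i := k) (diffble_of_smooth (s0 z (hsub hz) i j))
      (diffble_of_smooth (smooth_cHess (hf z (hsub hz)) i j))]
    have h1 := hA' ((i, j), k) z hz
    have h2 := hfA' z hz i j k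
    simp only at h1
    refine (norm_add_le _ _).trans ?_
    rw [hC₀]
    linarith [le_abs_self A]
  have hsm : ∀ z ∈ ball p ρ, ∀ i j, ContDiffAt ℝ ∞ (fun y => (w y + cHess u y) i j) z :=
    fun z hz i j => (hw.smooth z hz i j).add (smooth_cHess (hu z hz) i j)
  have hcl : ∀ z ∈ ball p ρ, ∀ i j k, dz k (fun y => (w y + cHess u y) i j) z =
      dz i (fun y => (w y + cHess u y) k j) z := by
    intro z hz i j k
    have h1 : ∀ i j k, dz k (fun y => (w y + cHess u y) i j) z =
        dz k (fun y => w y i j) z + dz k (fun y => cHess u y i j) z := by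
      intro i j k
      exact dz_add (diffble_of_smooth (hw.smooth z hz i j))
        (diffble_of_smooth (smooth_cHess (hu z hz) i j))
    rw [h1, h1, hw.closed z hz i j k, cHess_closed (hu z hz)]
  have hric : ∀ z ∈ ball p ρ, cHess (fun y => Real.log (w y + cHess u y).det.re) z =
      (w z + cHess u z) + Tw w f z := by
    intro z hz
    have h1 : (fun y => Real.log (w y + cHess u y).det.re) =ᶠ[𝓝 z] fun y =>
        Real.log (w y).det.re + (u y + f y) := by
      filter_upwards [isOpen_ball.mem_nhds hz] with y hy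
      linarith [heq y hy]
    have hL := smooth_logdet' hw hz
    rw [cHess_congr h1, cHess_add (c2_of hL) ((c2_of (hu z hz)).add (c2_of (hf z hz))),
      cHess_add (c2_of (hu z hz)) (c2_of (hf z hz))]
    unfold Tw
    abel
  have hcal := hC3' (fun z => w z + cHess u z) (fun z => Tw w f z)
    (fun z hz i j => hsm z (hsub (hb3 hz)) i j)
    (fun z hz => (hpos z (hsub (hb3 hz))).isHermitian)
    (fun z hz => (hE z (hb3 hz)).1) (fun z hz => (hE z (hb3 hz)).2)
    (fun z hz i j k => hcl z (hsub (hb3 hz)) i j k)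
    (fun z hz => hric z (hsub (hb3 hz)))
    (fun z hz i j => t1 z (hb3 hz) i j) (fun z hz i j => t2 z (hb3 hz) i j)
    (fun z hz i j k => t3 z (hb3 hz) i j k)
  have hb2 : ball p (2 * δ / 3 + R) ⊆ closedBall p (2 * δ / 3 + R) := ball_subset_closedBall
  have hb23 : closedBall p (2 * δ / 3 + R) ⊆ closedBall p (δ + R) :=
    closedBall_subset_closedBall (by linarith)
  have hdz : ∀ z ∈ ball p (2 * δ / 3 + R), ∀ i j k,
      ‖dz k (fun y => cHess u y i j) z‖ ≤ M := by
    intro z hz i j k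
    have hzt : z ∈ ball p ρ := hsub (hb23 (hb2 hz))
    have h1 := hcal z (hb2 hz) i j k
    have h2 : dz k (fun y => (w y + cHess u y) i j) z = dz k (fun y => w y i j) z +
        dz k (fun y => cHess u y i j) z :=
      dz_add (diffble_of_smooth (hw.smooth z hzt i j)) (diffble_of_smooth (smooth_cHess (hu z hzt) i j))
    have h3 := hB' ((i, j), k) z (hb23 (hb2 hz))
    simp only at h3
    have h4 : dz k (fun y => cHess u y i j) z =
        dz k (fun y => (w y + cHess u y) i j) z - dz k (fun y => w y i j) z := by rw [h2]; ring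
    rw [h4]
    refine (norm_sub_le _ _).trans ?_
    have h5 := le_abs_self C3
    have h6 := abs_nonneg M₀
    have h7 := abs_nonneg Lam
    rw [hM]
    linarith
  refine hCI u (fun z hz => hu z (hsub (hb23 (hb2 hz)))) ?_ ?_ hdz ?_ y
    (closedBall_subset_closedBall (by linarith) hy) y'
    (closedBall_subset_closedBall (by linarith) hy')
  · intro z hz
    have h1 := hu0 z (hsub (hb23 (hb2 hz)))
    have h2 := le_abs_self M₀
    have h7 := abs_nonneg Lam
    have h8 := abs_nonneg C3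
    rw [hM]
    linarith
  · intro z hz i j
    have h1 := entry_le (hpos z (hsub (hb23 (hb2 hz)))).posSemidef (hE z (hb23 (hb2 hz))).2 i j
    have h3 := hB (i, j) z (hb23 (hb2 hz))
    simp only at h3
    have h4 : cHess u z i j = (w z + cHess u z) i j - w z i j := by
      simp only [Matrix.add_apply]; ring
    rw [h4]
    refine (norm_sub_le _ _).trans ?_
    have h5 := le_abs_self Lam
    have h6 := abs_nonneg M₀
    have h8 := abs_nonneg C3
    rw [hM]
    linarith
  · intro z hz i j k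
    rw [dzb_cHess (hu z (hsub (hb23 (hb2 hz)))) i j k, RCLike.norm_conj]
    exact hdz z hz j i k

end Vale.Agent.P284.H119.CY
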