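import Vale.Agent.P272.K.V.Final

/-! P284, theorem CY: the local resolvent with constants which are uniform in the coefficients. -/

open scoped ContDiff
open Module Metric

set_option maxSynthPendingDepth 3

noncomputable section

namespace Vale.Agent.P284.H119.CY

open Vale.Agent.P272.K.LIN Vale.Agent.P272.K.V

variable {E : Type*} [NormedAddCommGroup E] [NormedSpace ℝ E]

/-- the coefficients of the second order part -/
abbrev Co (E : Type*) [NormedAddCommGroup E] [NormedSpace ℝ E] : Type _ :=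
  (E →L[ℝ] E →L[ℝ] ℝ) →L[ℝ] ℝ

/-- solvability with constant coefficients -/
def CR (α C : ℝ) (a₀ : Co E) : Prop :=
  ∀ l : ℝ, 1 ≤ l → ∀ (f : E → ℝ) (A B : ℝ), 0 ≤ B → HB α f A B →
    ∃ v : E → ℝ, ContDiff ℝ 2 v ∧ (∀ x, l * v x - a₀ (fderiv ℝ (fderiv ℝ v) x) = f x) ∧
      ResBd α l C (l ^ (α / 2) * A + B) v

lemma ResBd.mono_C {α l C C' N : ℝ} {v : E → ℝ} (hl : 0 < l) (hN : 0 ≤ N) (h : ResBd α l C N v)
    (hC : C ≤ C') : ResBd α l C' N v := by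
  have hlp : ∀ r : ℝ, 0 ≤ l ^ r := fun r => (Real.rpow_pos_of_pos hl r).le
  have key : ∀ X : ℝ, 0 ≤ X → C * N * X ≤ C' * N * X := fun X hX => by gcongr
  refine ⟨HB.mono h.zero (key _ (hlp _)) (key _ (hlp _)),
    HB.mono h.one (key _ (hlp _)) (key _ (hlp _)), HB.mono h.two (key _ (hlp _)) ?_⟩
  gcongr

lemma CR.mono {α C C' : ℝ} {a₀ : Co E} (h : CR α C a₀) (hC : C ≤ C') : CR α C' a₀ := by
  intro l hl f A B hB hf
  obtain ⟨v, h1, h2, h3⟩ := h l hl f A B hB hf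
  have hl0 : 0 < l := by linarith
  have hA : 0 ≤ A := HB.nonneg_left hf
  have : 0 ≤ l ^ (α / 2) := (Real.rpow_pos_of_pos hl0 _).le
  exact ⟨v, h1, h2, ResBd.mono_C hl0 (by positivity) h3 hC⟩

/-- perturbation of the constant coefficients -/
lemma CR.perturb {α C : ℝ} (hα : 0 < α) (hα1 : α < 1) (hC : 0 ≤ C) {a₀ a₁ : Co E} (h : CR α C a₀)
    (ha : C * (2 * ‖a₁ - a₀‖) ≤ 1 / 4) : CR α (2 * C) a₁ := by
  intro l hl f A B hB hf
  have hl0 : 0 < l := by linarith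
  obtain ⟨v, hv2, hvb, hveq⟩ := iterate (α := α) hl0 hC
    (fun _ => opJet l a₁ 0) (by
      intro f A B hB hf
      obtain ⟨v, hv2, hveq, hvb⟩ := h l hl f A B hB hf
      have hA : 0 ≤ A := HB.nonneg_left hf
      have hlp : ∀ r : ℝ, 0 ≤ l ^ r := fun r => (Real.rpow_pos_of_pos hl0 r).le
      have hN : 0 ≤ l ^ (α / 2) * A + B := add_nonneg (mul_nonneg (hlp _) hA) hB
      have hCN : 0 ≤ C * (l ^ (α / 2) * A + B) := mul_nonneg hC hN
      have hc : HB α (fun _ : E => a₁ - a₀) ‖a₁ - a₀‖ 0 :=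
        ⟨fun _ => le_rfl, fun x y => by simp⟩
      have hc0 : HB α (fun _ : E => (0 : (E →L[ℝ] ℝ) →L[ℝ] ℝ)) 0 0 :=
        ⟨fun _ => by simp, fun x y => by simp⟩
      refine ⟨v, hv2, hvb, fun x => (a₁ - a₀) (fderiv ℝ (fderiv ℝ v) x) +
        (0 : (E →L[ℝ] ℝ) →L[ℝ] ℝ) (fderiv ℝ v x), _, _, ?_,
        HB.add (HB.apply (norm_nonneg _) le_rfl hc hvb.two) (HB.apply le_rfl le_rfl hc0 hvb.one),
        ?_, ?_⟩
      · have h1 := hlp (-(α / 2))
        have h2 := hlp (-((1 + α) / 2))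
        have h3 := hlp (-(1 / 2))
        positivity
      · refine step_arith hα hα1 hl hC hN (norm_nonneg _) le_rfl le_rfl le_rfl ha ?_
        simp
      · intro x
        rw [opJet_apply, ← hveq x]
        simp only [_root_.sub_apply, _root_.zero_apply]
        ring) f A B hB hf
  refine ⟨v, hv2, fun x => ?_, hvb⟩
  have h1 := hveq x
  rw [opJet_apply, _root_.zero_apply, sub_zero] at h1
  exact h1

variable [FiniteDimensional ℝ E]

/-- **Constant coefficients, uniform version.** -/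
theorem const_unif {α : ℝ} (hα : 0 < α) (hα1 : α < 1) {lam Lam : ℝ} (hlam : 0 < lam) :
    ∃ C : ℝ, 0 ≤ C ∧ ∀ a₀ : Co E, (∀ ξ : E →L[ℝ] ℝ, lam * ‖ξ‖ ^ 2 ≤ a₀ (ξ.smulRight ξ)) →
      ‖a₀‖ ≤ Lam → CR α C a₀ := by
  set S : Set (Co E) := {a₀ | (∀ ξ : E →L[ℝ] ℝ, lam * ‖ξ‖ ^ 2 ≤ a₀ (ξ.smulRight ξ)) ∧ ‖a₀‖ ≤ Lam}
    with hS
  have hSc : IsCompact S := by
    have : ProperSpace (Co E) := FiniteDimensional.proper_real _
    have e : S = (⋂ ξ : E →L[ℝ] ℝ, {a₀ : Co E | lam * ‖ξ‖ ^ 2 ≤ a₀ (ξ.smulRight ξ)}) ∩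
        {a₀ : Co E | ‖a₀‖ ≤ Lam} := by
      ext a; simp [hS]
    refine (isCompact_closedBall (0 : Co E) Lam).of_isClosed_subset ?_ ?_
    · rw [e]
      refine IsClosed.inter ?_ (isClosed_le continuous_norm continuous_const)
      exact isClosed_iInter fun ξ => isClosed_le continuous_const (by fun_prop)
    · intro a ha
      rw [mem_closedBall, dist_zero_right]
      exact ha.2
  -- local uniformity
  have hloc : ∀ a₀ ∈ S, ∃ t ∈ nhdsWithin a₀ S, ∃ C : ℝ, 0 ≤ C ∧ ∀ a ∈ t, CR α C a := by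
    intro a₀ ha₀
    have hpos : ∀ ξ : E →L[ℝ] ℝ, ξ ≠ 0 → 0 < a₀ (ξ.smulRight ξ) := by
      intro ξ hξ
      have h1 := ha₀.1 ξ
      have h2 : 0 < ‖ξ‖ := norm_pos_iff.2 hξ
      have : 0 < lam * ‖ξ‖ ^ 2 := by positivity
      linarith
    obtain ⟨C, hC, h⟩ := const_resolvent' hα hα1 a₀ hpos
    refine ⟨ball a₀ (1 / (8 * (C + 1))), ?_, 2 * C, by positivity, fun a ha => ?_⟩
    · exact mem_nhdsWithin_of_mem_nhds (ball_mem_nhds _ (by positivity))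
    · refine CR.perturb hα hα1 hC h ?_
      rw [mem_ball, dist_eq_norm] at ha
      calc C * (2 * ‖a - a₀‖) ≤ C * (2 * (1 / (8 * (C + 1)))) := by gcongr
        _ = (C / (C + 1)) * (1 / 4) := by field_simp; ring
        _ ≤ 1 * (1 / 4) := by
          refine mul_le_mul_of_nonneg_right ?_ (by norm_num)
          rw [div_le_one (by positivity)]; linarith
        _ = 1 / 4 := one_mul _
  obtain ⟨C, hC, h⟩ := hSc.induction_on (p := fun t => ∃ C : ℝ, 0 ≤ C ∧ ∀ a ∈ t, CR α C a)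
    ⟨0, le_rfl, fun a ha => absurd ha (Set.notMem_empty a)⟩
    (fun s t hst ⟨C, hC, h⟩ => ⟨C, hC, fun a ha => h a (hst ha)⟩)
    (fun s t ⟨C, hC, h⟩ ⟨C', hC', h'⟩ => ⟨max C C', hC.trans (le_max_left _ _), fun a ha =>
      ha.elim (fun ha => (h a ha).mono (le_max_left _ _))
        (fun ha => (h' a ha).mono (le_max_right _ _))⟩) hloc
  exact ⟨C, hC, fun a₀ h1 h2 => h a₀ ⟨h1, h2⟩⟩

/-- **The local resolvent, uniform version**: `r`, `C`, `l₀` depend only on the ellipticity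
constants, the Hölder constants and the radius `ρ`. -/
theorem local_unif {α : ℝ} (hα : 0 < α) (hα1 : α < 1) {lam Lam K ρ : ℝ} (hlam : 0 < lam)
    (hK : 0 ≤ K) (hρ : 0 < ρ) :
    ∃ r > 0, 2 * r < ρ ∧ ∃ C : ℝ, 0 ≤ C ∧ ∃ l₀ : ℝ, 1 ≤ l₀ ∧
      ∀ (x₀ : E) (a : E → Co E) (b : E → (E →L[ℝ] ℝ) →L[ℝ] ℝ),
      (∀ x ∈ ball x₀ ρ, ∀ y ∈ ball x₀ ρ, ‖a x - a y‖ ≤ K * ‖x - y‖ ^ α) →
      (∀ x ∈ ball x₀ ρ, ∀ y ∈ ball x₀ ρ, ‖b x - b y‖ ≤ K * ‖x - y‖ ^ α) →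
      (∀ ξ : E →L[ℝ] ℝ, lam * ‖ξ‖ ^ 2 ≤ a x₀ (ξ.smulRight ξ)) → ‖a x₀‖ ≤ Lam → ‖b x₀‖ ≤ Lam →
      ∀ l : ℝ, l₀ ≤ l → ∀ (f : E → ℝ) (A B : ℝ), 0 ≤ B → HB α f A B →
        ∃ v : E → ℝ, ContDiff ℝ 2 v ∧
          (∀ x ∈ closedBall x₀ r,
            l * v x - a x (fderiv ℝ (fderiv ℝ v) x) - b x (fderiv ℝ v x) = f x) ∧
          ResBd α l C (l ^ (α / 2) * A + B) v := by
  obtain ⟨C, hC, hres⟩ := const_unif (E := E) hα hα1 (Lam := Lam) hlam
  set Lp : ℝ := max Lam 0 with hLp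
  have hLp0 : 0 ≤ Lp := le_max_right _ _
  -- choice of the radius
  obtain ⟨r, hr, hrR, hrC⟩ : ∃ r : ℝ, 0 < r ∧ 2 * r < ρ ∧ C * (2 * (K * (2 * r) ^ α)) ≤ 1 / 4 := by
    have ht : Filter.Tendsto (fun r : ℝ => C * (2 * (K * (2 * r) ^ α))) (nhdsWithin 0 (Set.Ioi 0))
        (nhds (C * (2 * (K * (2 * 0) ^ α)))) := by
      have h1 : Continuous fun r : ℝ => C * (2 * (K * (2 * r) ^ α)) := by
        have : Continuous fun r : ℝ => (2 * r) ^ α :=
          (continuous_const.mul continuous_id).rpow_const fun _ => Or.inr hα.le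
        fun_prop
      exact (h1.tendsto 0).mono_left nhdsWithin_le_nhds
    rw [mul_zero, Real.zero_rpow hα.ne', mul_zero, mul_zero, mul_zero] at ht
    have h1 : ∀ᶠ r : ℝ in nhdsWithin 0 (Set.Ioi 0), C * (2 * (K * (2 * r) ^ α)) ≤ 1 / 4 :=
      ht.eventually (Iic_mem_nhds (by norm_num))
    have h2 : ∀ᶠ r : ℝ in nhdsWithin 0 (Set.Ioi 0), 2 * r < ρ := by
      have : ∀ᶠ r : ℝ in nhds 0, 2 * r < ρ := by
        have h3 : Filter.Tendsto (fun r : ℝ => 2 * r) (nhds 0) (nhds (2 * 0)) :=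
          (continuous_const.mul continuous_id).tendsto 0
        rw [mul_zero] at h3
        exact h3.eventually (Iio_mem_nhds hρ)
      exact this.filter_mono nhdsWithin_le_nhds
    have h3 : ∀ᶠ r : ℝ in nhdsWithin 0 (Set.Ioi 0), 0 < r := eventually_mem_nhdsWithin
    obtain ⟨r, h4, h5, h6⟩ := (h1.and (h2.and h3)).exists
    exact ⟨r, h6, h5, h4⟩
  set M₁ : ℝ := K * (2 * r) ^ α with hM₁
  have hM₁0 : 0 ≤ M₁ := mul_nonneg hK (Real.rpow_nonneg (by linarith) _)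
  set M₂ : ℝ := Lp + K * (2 * r) ^ α with hM₂
  have hM₂0 : 0 ≤ M₂ := add_nonneg hLp0 (mul_nonneg hK (Real.rpow_nonneg (by linarith) _))
  have hra : 0 ≤ r ^ (-α) := (Real.rpow_pos_of_pos hr _).le
  set K₁ : ℝ := K + M₁ * r ^ (-α) with hK₁
  set K₂ : ℝ := K + M₂ * r ^ (-α) with hK₂
  have hK₁0 : 0 ≤ K₁ := by positivity
  have hK₂0 : 0 ≤ K₂ := by positivity
  -- choice of `l₀`
  obtain ⟨l₀, hl₀, hl₀'⟩ : ∃ l₀ : ℝ, 1 ≤ l₀ ∧ ∀ l, l₀ ≤ l →
      C * (2 * M₂ + K₁ + K₂) * l ^ (-(α / 2)) ≤ 1 / 4 := by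
    have ht : Filter.Tendsto (fun l : ℝ => C * (2 * M₂ + K₁ + K₂) * l ^ (-(α / 2))) Filter.atTop
        (nhds (C * (2 * M₂ + K₁ + K₂) * 0)) :=
      (tendsto_rpow_neg_atTop (by linarith)).const_mul _
    rw [mul_zero] at ht
    obtain ⟨l₁, hl₁⟩ := Filter.eventually_atTop.1 (ht.eventually (Iic_mem_nhds (by norm_num : (0:ℝ) < 1 / 4)))
    exact ⟨max 1 l₁, le_max_left _ _, fun l hl => hl₁ l ((le_max_right _ _).trans hl)⟩
  refine ⟨r, hr, hrR, 2 * C, by positivity, l₀, hl₀, ?_⟩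
  intro x₀ a b ha hb hae hau hbu l hl f A B hB hf
  have hx₀ : x₀ ∈ ball x₀ ρ := mem_ball_self hρ
  have hball : ∀ x, ‖x - x₀‖ ≤ 2 * r → x ∈ ball x₀ ρ := fun x hx => by
    rw [mem_ball, dist_eq_norm]; linarith
  have hcm : HB α (fun x => cut x₀ r x • (a x - a x₀)) M₁ K₁ := by
    refine cut_smul_hb hα hα1 hr hM₁0 hK (fun x hx => ?_) (fun x y hx hy => ?_)
    · refine (ha x (hball x hx) x₀ hx₀).trans ?_
      rw [hM₁]
      exact mul_le_mul_of_nonneg_left (Real.rpow_le_rpow (norm_nonneg _) hx hα.le) hK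
    · rw [sub_sub_sub_cancel_right]
      exact ha x (hball x hx) y (hball y hy)
  have hcb : HB α (fun x => cut x₀ r x • b x) M₂ K₂ := by
    refine cut_smul_hb hα hα1 hr hM₂0 hK (fun x hx => ?_) (fun x y hx hy => ?_)
    · have e : b x = b x₀ + (b x - b x₀) := by abel
      rw [e, hM₂]
      refine (norm_add_le _ _).trans (add_le_add (hbu.trans (le_max_left _ _))
        ((hb x (hball x hx) x₀ hx₀).trans ?_))
      exact mul_le_mul_of_nonneg_left (Real.rpow_le_rpow (norm_nonneg _) hx hα.le) hK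
    · exact hb x (hball x hx) y (hball y hy)
  have hl1 : 1 ≤ l := hl₀.trans hl
  have hl0 : 0 < l := by linarith
  obtain ⟨v, hv2, hvb, hveq⟩ := iterate (α := α) hl0 hC
    (fun x => opJet l (a x₀ + cut x₀ r x • (a x - a x₀)) (cut x₀ r x • b x)) (by
      intro f A B hB hf
      obtain ⟨v, hv2, hveq, hvb⟩ := hres (a x₀) hae hau l hl1 f A B hB hf
      have hA : 0 ≤ A := HB.nonneg_left hf
      have hlp : ∀ r : ℝ, 0 ≤ l ^ r := fun r => (Real.rpow_pos_of_pos hl0 r).le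
      have hN : 0 ≤ l ^ (α / 2) * A + B := add_nonneg (mul_nonneg (hlp _) hA) hB
      have hCN : 0 ≤ C * (l ^ (α / 2) * A + B) := mul_nonneg hC hN
      refine ⟨v, hv2, hvb, fun x => (cut x₀ r x • (a x - a x₀)) (fderiv ℝ (fderiv ℝ v) x) +
        (cut x₀ r x • b x) (fderiv ℝ v x), _, _, ?_,
        HB.add (HB.apply hM₁0 hK₁0 hcm hvb.two) (HB.apply hM₂0 hK₂0 hcb hvb.one), ?_, ?_⟩
      · have h1 := hlp (-(α / 2))
        have h2 := hlp (-((1 + α) / 2))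
        have h3 := hlp (-(1 / 2))
        positivity
      · exact step_arith hα hα1 hl1 hC hN hM₁0 hK₁0 hM₂0 hK₂0 hrC (hl₀' l hl)
      · intro x
        rw [opJet_apply, ← hveq x]
        simp only [add_apply, smul_apply]
        ring) f A B hB hf
  refine ⟨v, hv2, fun x hx => ?_, hvb⟩
  have h1 := hveq x
  rw [opJet_apply] at h1
  have hx' : ‖x - x₀‖ ≤ r := by rwa [mem_closedBall, dist_eq_norm] at hx
  rw [cut_eq_one hr hx', one_smul, one_smul, add_sub_cancel] at h1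
  exact h1

end Vale.Agent.P284.H119.CY
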