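import Vale.Agent.P284.H730.CY.Spec
import Vale.Agent.P284.H119.CY.Res
import Vale.Agent.P284.H119.CY.Est

/-! P284, theorem CY: rows L1 and E, literal. -/

open scoped Manifold ContDiff Topology NNReal ComplexOrder
open Filter Set Metric MeasureTheory

set_option maxSynthPendingDepth 3

noncomputable section

namespace Vale.Agent.P284.H119.CY

open Vale.Agent.P272.K Vale.Agent.P272.K.LIN Vale.Agent.P272.K.N Vale.Agent.P284.H894
  Vale.Agent.P284.H894.V Vale.Agent.P284.H409.K Vale.Agent.P284.H730.CY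

/-- **L1** -/
theorem l1Stmt : Vale.Agent.P284.H730.CY.L1Stmt := by
  intro n α hα hα1 ρ c K hρ hc
  obtain ⟨r, hr, hr2, B, hB, l₀, hl₀, h⟩ := local_unif (E := Cm n) hα hα1 (lam := c)
    (Lam := max K 0) (K := max K 0) hc (le_max_right _ _) hρ
  refine ⟨r, hr, by linarith, B, hB, l₀, hl₀, fun z₀ a hab hah hae l hl f A D hD hf => ?_⟩
  have hz₀ : z₀ ∈ ball z₀ ρ := mem_ball_self hρ
  obtain ⟨v, hv, heq, hbd⟩ := h z₀ a (fun _ => 0) (fun x hx y hy => (hah x hx y hy).trans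
    (mul_le_mul_of_nonneg_right (le_max_left _ _) (Real.rpow_nonneg (norm_nonneg _) _)))
    (fun x hx y hy => by simp only [sub_self, norm_zero]; positivity) hae
    ((hab z₀ hz₀).trans (le_max_left _ _)) (by simp) l hl f A D hD hf
  refine ⟨v, hv, fun z hz => ?_, hbd⟩
  have := heq z hz
  rwa [_root_.zero_apply, sub_zero] at this

variable {n : ℕ}

/-- `dz j f` is the composition of `fderiv ℝ f` with a linear map of norm `≤ 1`. -/
lemma exists_dz (j : Fin n) : ∃ L : (Cm n →L[ℝ] ℂ) →L[ℝ] ℂ, ‖L‖ ≤ 1 ∧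
    ∀ (f : Cm n → ℂ), dz j f = L ∘ fderiv ℝ f := by
  let L0 : (Cm n →L[ℝ] ℂ) →ₗ[ℝ] ℂ :=
    { toFun := fun φ => (φ (Pi.single j 1) - Complex.I * φ (Pi.single j Complex.I)) / 2
      map_add' := fun φ ψ => by simp only [_root_.add_apply]; ring
      map_smul' := fun c φ => by
        simp only [_root_.smul_apply, RingHom.id_apply, Complex.real_smul]; ring }
  have h1 : ‖(Pi.single j 1 : Cm n)‖ ≤ 1 := by
    rw [pi_norm_le_iff_of_nonneg zero_le_one]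
    intro i
    by_cases h : i = j
    · subst h; simp
    · simp [Pi.single_eq_of_ne h]
  have h2 : ‖(Pi.single j Complex.I : Cm n)‖ ≤ 1 := by
    rw [pi_norm_le_iff_of_nonneg zero_le_one]
    intro i
    by_cases h : i = j
    · subst h; simp
    · simp [Pi.single_eq_of_ne h]
  have hb : ∀ φ : Cm n →L[ℝ] ℂ, ‖L0 φ‖ ≤ 1 * ‖φ‖ := by
    intro φ
    change ‖(φ (Pi.single j 1) - Complex.I * φ (Pi.single j Complex.I)) / 2‖ ≤ 1 * ‖φ‖
    have a1 : ‖φ (Pi.single j 1)‖ ≤ ‖φ‖ := (φ.le_opNorm _).trans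
      (mul_le_of_le_one_right (norm_nonneg _) h1)
    have a2 : ‖φ (Pi.single j Complex.I)‖ ≤ ‖φ‖ := (φ.le_opNorm _).trans
      (mul_le_of_le_one_right (norm_nonneg _) h2)
    rw [norm_div, one_mul]
    have a3 : ‖φ (Pi.single j 1) - Complex.I * φ (Pi.single j Complex.I)‖ ≤ ‖φ‖ + ‖φ‖ := by
      refine (norm_sub_le _ _).trans (add_le_add a1 ?_)
      rw [norm_mul, Complex.norm_I, one_mul]; exact a2
    have : ‖(2 : ℂ)‖ = 2 := by simp
    rw [this, div_le_iff₀ (by norm_num)]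
    linarith
  exact ⟨L0.mkContinuous 1 hb, L0.mkContinuous_norm_le zero_le_one hb, fun f => rfl⟩

lemma exists_dzb (j : Fin n) : ∃ L : (Cm n →L[ℝ] ℂ) →L[ℝ] ℂ, ‖L‖ ≤ 1 ∧
    ∀ (f : Cm n → ℂ), dzb j f = L ∘ fderiv ℝ f := by
  let L0 : (Cm n →L[ℝ] ℂ) →ₗ[ℝ] ℂ :=
    { toFun := fun φ => (φ (Pi.single j 1) + Complex.I * φ (Pi.single j Complex.I)) / 2
      map_add' := fun φ ψ => by simp only [_root_.add_apply]; ring
      map_smul' := fun c φ => by
        simp only [_root_.smul_apply, RingHom.id_apply, Complex.real_smul]; ring }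
  have h1 : ‖(Pi.single j 1 : Cm n)‖ ≤ 1 := by
    rw [pi_norm_le_iff_of_nonneg zero_le_one]
    intro i
    by_cases h : i = j
    · subst h; simp
    · simp [Pi.single_eq_of_ne h]
  have h2 : ‖(Pi.single j Complex.I : Cm n)‖ ≤ 1 := by
    rw [pi_norm_le_iff_of_nonneg zero_le_one]
    intro i
    by_cases h : i = j
    · subst h; simp
    · simp [Pi.single_eq_of_ne h]
  have hb : ∀ φ : Cm n →L[ℝ] ℂ, ‖L0 φ‖ ≤ 1 * ‖φ‖ := by
    intro φ
    change ‖(φ (Pi.single j 1) + Complex.I * φ (Pi.single j Complex.I)) / 2‖ ≤ 1 * ‖φ‖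
    have a1 : ‖φ (Pi.single j 1)‖ ≤ ‖φ‖ := (φ.le_opNorm _).trans
      (mul_le_of_le_one_right (norm_nonneg _) h1)
    have a2 : ‖φ (Pi.single j Complex.I)‖ ≤ ‖φ‖ := (φ.le_opNorm _).trans
      (mul_le_of_le_one_right (norm_nonneg _) h2)
    rw [norm_div, one_mul]
    have a3 : ‖φ (Pi.single j 1) + Complex.I * φ (Pi.single j Complex.I)‖ ≤ ‖φ‖ + ‖φ‖ := by
      refine (norm_add_le _ _).trans (add_le_add a1 ?_)
      rw [norm_mul, Complex.norm_I, one_mul]; exact a2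
    have : ‖(2 : ℂ)‖ = 2 := by simp
    rw [this, div_le_iff₀ (by norm_num)]
    linarith
  exact ⟨L0.mkContinuous 1 hb, L0.mkContinuous_norm_le zero_le_one hb, fun f => rfl⟩

lemma norm_iter_dz (j : Fin n) {f : Cm n → ℂ} {z : Cm n} (hf : ContDiffAt ℝ ∞ f z) (k : ℕ) :
    ‖iteratedFDeriv ℝ k (dz j f) z‖ ≤ ‖iteratedFDeriv ℝ (k + 1) f z‖ := by
  obtain ⟨L, hL, h⟩ := exists_dz j
  rw [h f]
  have h1 : ContDiffAt ℝ k (fderiv ℝ f) z := by
    refine ContDiffAt.fderiv_right (m := (k : WithTop ℕ∞)) (n := ∞) hf ?_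
    exact_mod_cast le_top
  refine (L.norm_iteratedFDeriv_comp_left h1 le_rfl).trans ?_
  rw [norm_iteratedFDeriv_fderiv]
  exact mul_le_of_le_one_left (norm_nonneg _) hL

lemma norm_iter_dzb (j : Fin n) {f : Cm n → ℂ} {z : Cm n} (hf : ContDiffAt ℝ ∞ f z) (k : ℕ) :
    ‖iteratedFDeriv ℝ k (dzb j f) z‖ ≤ ‖iteratedFDeriv ℝ (k + 1) f z‖ := by
  obtain ⟨L, hL, h⟩ := exists_dzb j
  rw [h f]
  have h1 : ContDiffAt ℝ k (fderiv ℝ f) z := by
    refine ContDiffAt.fderiv_right (m := (k : WithTop ℕ∞)) (n := ∞) hf ?_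
    exact_mod_cast le_top
  refine (L.norm_iteratedFDeriv_comp_left h1 le_rfl).trans ?_
  rw [norm_iteratedFDeriv_fderiv]
  exact mul_le_of_le_one_left (norm_nonneg _) hL

lemma norm_iter_ofReal {f : Cm n → ℝ} {z : Cm n} (hf : ContDiffAt ℝ ∞ f z) (k : ℕ) :
    ‖iteratedFDeriv ℝ k (fun y => (f y : ℂ)) z‖ ≤ ‖iteratedFDeriv ℝ k f z‖ := by
  have h1 : ContDiffAt ℝ k f z := hf.of_le (by exact_mod_cast le_top)
  have := Complex.ofRealCLM.norm_iteratedFDeriv_comp_left h1 le_rfl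
  refine this.trans ?_
  rw [Complex.ofRealCLM_norm, one_mul]

lemma norm_iter_smul {f : Cm n → ℝ} {z : Cm n} (hf : ContDiffAt ℝ ∞ f z) (k : ℕ) {s : ℝ}
    (hs : s ∈ Icc (0 : ℝ) 1) :
    ‖iteratedFDeriv ℝ k (fun y => s * f y) z‖ ≤ ‖iteratedFDeriv ℝ k f z‖ := by
  have h1 : ContDiffAt ℝ k f z := hf.of_le (by exact_mod_cast le_top)
  have := (s • ContinuousLinearMap.id ℝ ℝ).norm_iteratedFDeriv_comp_left h1 le_rfl
  refine this.trans ?_
  refine mul_le_of_le_one_left (norm_nonneg _) ?_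
  rw [norm_smul, Real.norm_eq_abs, abs_of_nonneg hs.1]
  calc s * ‖ContinuousLinearMap.id ℝ ℝ‖ ≤ 1 * 1 :=
        mul_le_mul hs.2 ContinuousLinearMap.norm_id_le (norm_nonneg _) zero_le_one
    _ = 1 := one_mul 1

lemma smooth_ofReal {f : Cm n → ℝ} {z : Cm n} (hf : ContDiffAt ℝ ∞ f z) :
    ContDiffAt ℝ ∞ (fun y => (f y : ℂ)) z := Complex.ofRealCLM.contDiff.contDiffAt.comp z hf

lemma norm_cHess_le {f : Cm n → ℝ} {z : Cm n} (hf : ContDiffAt ℝ ∞ f z) (i j : Fin n) :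
    ‖cHess f z i j‖ ≤ ‖iteratedFDeriv ℝ 2 f z‖ := by
  have h0 := smooth_ofReal hf
  have h1 : ContDiffAt ℝ ∞ (dzb j fun y => (f y : ℂ)) z := EST.smooth_dzb h0 j
  calc ‖cHess f z i j‖ = ‖iteratedFDeriv ℝ 0 (dz i (dzb j fun y => (f y : ℂ))) z‖ := by
        rw [norm_iteratedFDeriv_zero]; rfl
    _ ≤ ‖iteratedFDeriv ℝ 1 (dzb j fun y => (f y : ℂ)) z‖ := norm_iter_dz i h1 0
    _ ≤ ‖iteratedFDeriv ℝ 2 (fun y => (f y : ℂ)) z‖ := norm_iter_dzb j h0 1
    _ ≤ _ := norm_iter_ofReal hf 2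

lemma norm_dz_cHess_le {f : Cm n → ℝ} {z : Cm n} (hf : ContDiffAt ℝ ∞ f z) (i j k : Fin n) :
    ‖dz k (fun y => cHess f y i j) z‖ ≤ ‖iteratedFDeriv ℝ 3 f z‖ := by
  have h0 := smooth_ofReal hf
  have h1 : ContDiffAt ℝ ∞ (dzb j fun y => (f y : ℂ)) z := EST.smooth_dzb h0 j
  have h2 : ContDiffAt ℝ ∞ (dz i (dzb j fun y => (f y : ℂ))) z := EST.smooth_dz h1 i
  calc ‖dz k (fun y => cHess f y i j) z‖
      = ‖iteratedFDeriv ℝ 0 (dz k (dz i (dzb j fun y => (f y : ℂ)))) z‖ := by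
        rw [norm_iteratedFDeriv_zero]; rfl
    _ ≤ ‖iteratedFDeriv ℝ 1 (dz i (dzb j fun y => (f y : ℂ))) z‖ := norm_iter_dz k h2 0
    _ ≤ ‖iteratedFDeriv ℝ 2 (dzb j fun y => (f y : ℂ)) z‖ := norm_iter_dz i h1 1
    _ ≤ ‖iteratedFDeriv ℝ 3 (fun y => (f y : ℂ)) z‖ := norm_iter_dzb j h0 2
    _ ≤ _ := norm_iter_ofReal hf 3

lemma exists_max' {I : Type} [Fintype I] (f : I → ℝ) : ∃ M : ℝ, 0 ≤ M ∧ ∀ i, f i ≤ M := by
  classical
  refine ⟨∑ i, |f i|, Finset.sum_nonneg fun i _ => abs_nonneg _, fun i => ?_⟩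
  exact (le_abs_self _).trans (Finset.single_le_sum (f := fun i => |f i|)
    (fun i _ => abs_nonneg _) (Finset.mem_univ i))

/-- a function of `FB` is bounded -/
lemma fb_bounded {Γ : Type} [Group Γ] {C : Coc n Γ} {F : Γ → C.I → Cm n → ℝ} (hF : FB C F) :
    ∃ A : ℝ, 0 ≤ A ∧ ∀ γ a, ∀ z ∈ C.Ω a, |F γ a z| ≤ A := by
  choose B hB using fun a : C.I => hF.bd a (C.r a) (by have := C.r_pos a; linarith) 0
  obtain ⟨A, hA0, hA⟩ := exists_max' B
  refine ⟨A, hA0, fun γ a z hz => ?_⟩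
  obtain ⟨b, hb, hTb⟩ := C.cover a z hz
  rw [hF.compat γ a b z hb]
  have := hB b (γ * C.κ a b z) (C.T a b z) (ball_subset_closedBall hTb)
  rw [norm_iteratedFDeriv_zero, Real.norm_eq_abs] at this
  exact this.trans (hA b)

/-- **E** -/
theorem eStmt : Vale.Agent.P284.H730.CY.EStmt := by
  intro hM0 hM2 n Γ _ C K F hF β hβ0 hβ1
  obtain ⟨A, hA0, hA⟩ := fb_bounded hF
  obtain ⟨B, hB1, hB⟩ := hM2 n Γ C K F hF A
  have hR : ∀ a : C.I, (0 : ℝ) < C.r a := C.r_pos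
  choose D2 hD2 using fun a : C.I => hF.bd a ((7 / 2 * C.r a + 4 * C.r a) / 2)
    (by have := hR a; linarith) 2
  choose D3 hD3 using fun a : C.I => hF.bd a ((7 / 2 * C.r a + 4 * C.r a) / 2)
    (by have := hR a; linarith) 3
  obtain ⟨A2, hA20, hA2⟩ := exists_max' D2
  obtain ⟨A3, hA30, hA3⟩ := exists_max' D3
  choose CI hCI using fun a : C.I => est_local (C.c a) (R := 7 / 2 * C.r a) (ρ := 4 * C.r a)
    (by have := hR a; positivity) (by have := hR a; linarith) hβ0 hβ1 (K.ku a)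
    (C := B) (by linarith) A (A2 + A3)
  obtain ⟨M, hM0', hM⟩ := exists_max' CI
  refine ⟨M, fun s hs φ hφ hbd γ a y hy y' hy' => ?_⟩
  have hφA : ∀ γ a, ∀ z ∈ C.Ω a, |φ γ a z| ≤ A := by
    refine hM0.bound n Γ C K _ φ hφ hbd A fun γ a z hz => ?_
    rw [abs_mul, abs_of_nonneg hs.1]
    calc s * |F γ a z| ≤ 1 * |F γ a z| := mul_le_mul_of_nonneg_right hs.2 (abs_nonneg _)
      _ ≤ A := by rw [one_mul]; exact hA γ a z hz
  have h2 := hB s hs φ hφ hbd hφA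
  have hsub : closedBall (C.c a) ((7 / 2 * C.r a + 4 * C.r a) / 2) ⊆ C.Ω a :=
    closedBall_subset_ball (by have := hR a; linarith)
  have hsm : ∀ z ∈ C.Ω a, ContDiffAt ℝ ∞ (fun y => s * F γ a y) z := fun z hz =>
    contDiffAt_const.mul (hF.smooth γ a z hz)
  have key := hCI a (φ γ a) (fun z => s * F γ a z) (fun z hz => hφ.smooth γ a z hz)
    (fun z hz => hφA γ a z hz) (fun z hz => hφ.pos γ a z hz)
    (fun z hz => (h2 γ a z hz).2) (fun z hz => (h2 γ a z hz).1) hsm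
    (fun z hz i j => by
      have h3 := norm_cHess_le (hsm z (hsub hz)) i j
      have h4 := norm_iter_smul (hF.smooth γ a z (hsub hz)) 2 hs
      have h5 := hD2 a γ z hz
      linarith [hA2 a])
    (fun z hz i j k => by
      have h3 := norm_dz_cHess_le (hsm z (hsub hz)) i j k
      have h4 := norm_iter_smul (hF.smooth γ a z (hsub hz)) 3 hs
      have h5 := hD3 a γ z hz
      linarith [hA3 a])
    (fun z hz => hφ.eq γ a z hz) y hy y' hy'
  exact key.trans (mul_le_mul_of_nonneg_right (hM a) (Real.rpow_nonneg (norm_nonneg _) _))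

end Vale.Agent.P284.H119.CY
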