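import Vale.Agent.P284.H894.Spec
import Vale.Agent.P272.K.N.Interp

/-! P284, theorem CY: interpolation on the pieces, uniformly in `Γ`. -/

open scoped ContDiff
open Metric Set

set_option maxSynthPendingDepth 3

noncomputable section

namespace Vale.Agent.P284.H119.CY

open Vale.Agent.P272.K Vale.Agent.P272.K.LIN Vale.Agent.P284.H894

variable {n : ℕ} {Γ : Type} [Group Γ]

lemma exists_min {I : Type} [Fintype I] [Nonempty I] (f : I → ℝ) (hf : ∀ i, 0 < f i) :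
    ∃ δ > 0, ∀ i, δ ≤ f i := by
  obtain ⟨i, -, hi⟩ := Finset.exists_min_image Finset.univ f Finset.univ_nonempty
  exact ⟨f i, hf i, fun j => hi j (Finset.mem_univ j)⟩

/-- **Interpolation** from the closed balls of radius `R a > 3 r a` to the closed balls of radius
`3 r a`: smallness in the sup norm and a bound of the `β`-Hölder constants of the second
derivatives give smallness of the jets in `C^α`, `α < β`. -/
theorem interp_fam (C : Coc n Γ) {α β : ℝ} (h0 : 0 < α) (h1 : α ≤ 1) (hαβ : α < β)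
    (R : C.I → ℝ) (hR : ∀ a, 3 * C.r a < R a) (M : ℝ) {δ : ℝ} (hδ : 0 < δ) :
    ∃ ε > 0, ∀ f : Γ → C.I → Cm n → ℝ,
      (∀ γ a, ∀ z ∈ closedBall (C.c a) (R a), ContDiffAt ℝ 2 (f γ a) z) →
      (∀ γ a, ∀ y ∈ closedBall (C.c a) (R a), ∀ y' ∈ closedBall (C.c a) (R a),
        ‖fderiv ℝ (fderiv ℝ (f γ a)) y - fderiv ℝ (fderiv ℝ (f γ a)) y'‖ ≤ M * ‖y - y'‖ ^ β) →
      (∀ γ a, ∀ z ∈ closedBall (C.c a) (R a), |f γ a z| ≤ ε) →
      (∀ γ a, ∀ y ∈ closedBall (C.c a) (3 * C.r a), ‖jet (f γ a) y‖ ≤ δ) ∧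
      ∀ γ a, ∀ y ∈ closedBall (C.c a) (3 * C.r a), ∀ y' ∈ closedBall (C.c a) (3 * C.r a),
        ‖jet (f γ a) y - jet (f γ a) y'‖ ≤ δ * ‖y - y'‖ ^ α := by
  choose ε hε0 hε using fun a : C.I => N.interp (C.c a)
    (by have := C.r_pos a; positivity : 0 < 3 * C.r a) (hR a) h0 h1 hαβ M hδ
  obtain ⟨ε', hε', h⟩ := exists_min ε hε0
  refine ⟨ε', hε', fun f hf hH hs => ?_⟩
  have key := fun γ a => hε a (f γ a) (hf γ a) (hH γ a) (fun z hz => (hs γ a z hz).trans (h a))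
  exact ⟨fun γ a => (key γ a).1, fun γ a => (key γ a).2⟩

end Vale.Agent.P284.H119.CY
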